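import Vale.Agent.P232.Gap.SliceBound

/-!
# P232 gap: the slice data of an admissible function
-/

open MeasureTheory Set Filter
open scoped NNReal Real Topology

noncomputable section

namespace Vale.Agent.P232.Gap

open Rigid (planeInt gradPerp)

variable {w : R3 → ℝ}

theorem Adm.continuous (hw : Adm w) : Continuous w :=
  hw.lipschitz.choose_spec.continuous

theorem Adm.measurable (hw : Adm w) : Measurable w := hw.continuous.measurable

theorem Adm.intervalIntegrable_energyAt (hw : Adm w) (d : Fin 3) (a b : ℝ) :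
    IntervalIntegrable (energyAt w d) volume a b :=
  Rigid.intervalIntegrable_planeInt (measurable_gradNorm w) (fun x => by
    rw [abs_of_nonneg (gradNorm_nonneg w x)]; exact gradNorm_le hw.lipschitz.choose_spec x) d a b

theorem Adm.intervalIntegrable_perpAt (hw : Adm w) (d : Fin 3) (a b : ℝ) :
    IntervalIntegrable (perpAt w d) volume a b :=
  Rigid.intervalIntegrable_planeInt (Rigid.measurable_gradPerp d w)
    (Rigid.abs_gradPerp_le hw.lipschitz.choose_spec d) d a b

theorem gradPerp_le_gradNorm (d : Fin 3) (f : R3 → ℝ) (x : R3) :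
    gradPerp d f x ≤ gradNorm f x := by
  rw [Rigid.gradNorm_eq d]
  exact Real.le_sqrt_of_sq_le (le_add_of_nonneg_right (sq_nonneg _))

theorem stress_pointwise (d : Fin 3) (f : R3 → ℝ) (x : R3) :
    2 * gradPerp d f x - gradNorm f x ≤ gradPerp d f x ^ 2 / gradNorm f x ∧
      gradPerp d f x ^ 2 / gradNorm f x ≤ gradPerp d f x := by
  have h := gradPerp_le_gradNorm d f x
  have h0 := Rigid.gradPerp_nonneg d f x
  rcases (gradNorm_nonneg f x).eq_or_lt with hS | hS
  · have : gradPerp d f x = 0 := by linarith
    rw [this, ← hS]; simp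
  · constructor
    · rw [le_div_iff₀ hS]; nlinarith [sq_nonneg (gradPerp d f x - gradNorm f x)]
    · rw [div_le_iff₀ hS]; nlinarith

theorem measurable_stress (d : Fin 3) (f : R3 → ℝ) :
    Measurable fun x => gradPerp d f x ^ 2 / gradNorm f x :=
  ((Rigid.measurable_gradPerp d f).pow_const 2).div (measurable_gradNorm f)

theorem Adm.abs_stress_le (hw : Adm w) (d : Fin 3) (x : R3) :
    |gradPerp d w x ^ 2 / gradNorm w x| ≤ 3 * (hw.lipschitz.choose : ℝ) := by
  rw [abs_of_nonneg (div_nonneg (sq_nonneg _) (gradNorm_nonneg w x))]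
  exact ((stress_pointwise d w x).2.trans (le_abs_self _)).trans
    (Rigid.abs_gradPerp_le hw.lipschitz.choose_spec d x)

theorem Adm.intervalIntegrable_stressAt (hw : Adm w) (d : Fin 3) (a b : ℝ) :
    IntervalIntegrable (stressAt w d) volume a b :=
  Rigid.intervalIntegrable_planeInt (measurable_stress d w) (hw.abs_stress_le d) d a b

theorem Adm.stressAt_le (hw : Adm w) (d : Fin 3) (t : ℝ) : stressAt w d t ≤ perpAt w d t :=
  integral_mono (Rigid.integrableOn_plane (measurable_stress d w) _ (hw.abs_stress_le d) d t)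
    (Rigid.integrableOn_plane (Rigid.measurable_gradPerp d w) _
      (Rigid.abs_gradPerp_le hw.lipschitz.choose_spec d) d t)
    fun _ => (stress_pointwise d w _).2

theorem Adm.stressAt_ge (hw : Adm w) (d : Fin 3) (t : ℝ) :
    2 * perpAt w d t - energyAt w d t ≤ stressAt w d t := by
  have i1 := Rigid.integrableOn_plane (Rigid.measurable_gradPerp d w) _
    (Rigid.abs_gradPerp_le hw.lipschitz.choose_spec d) d t
  have i2 := Rigid.integrableOn_plane (measurable_gradNorm w) (3 * (hw.lipschitz.choose : ℝ))
    (fun x => by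
      rw [abs_of_nonneg (gradNorm_nonneg w x)]; exact gradNorm_le hw.lipschitz.choose_spec x) d t
  simp only [perpAt, energyAt, stressAt, planeInt]
  rw [← integral_const_mul, ← integral_sub (i1.const_mul 2) i2]
  exact integral_mono ((i1.const_mul 2).sub i2)
    (Rigid.integrableOn_plane (measurable_stress d w) _ (hw.abs_stress_le d) d t)
    fun _ => (stress_pointwise d w _).1

theorem Adm.energy_eq (hw : Adm w) (d : Fin 3) :
    ∫ t in (0 : ℝ)..1, energyAt w d t = energy w := by
  rw [energy, ← Rigid.setIntegral_cell_eq_box]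
  exact (Rigid.integral_cell_eq_planeInt (measurable_gradNorm w) (fun x => by
    rw [abs_of_nonneg (gradNorm_nonneg w x)]; exact gradNorm_le hw.lipschitz.choose_spec x) d).symm

theorem Adm.vol_eq (hw : Adm w) (d : Fin 3) : ∫ t in (0 : ℝ)..1, areaAt w d t = vol w := by
  rw [vol, ← Rigid.setIntegral_cell_eq_box]
  exact (Rigid.integral_cell_eq_planeInt hw.measurable
    (fun x => Rigid.abs_le_one_of_mem (hw.mem x)) d).symm

theorem dist_facePoint (d : Fin 3) (y : R2) (p q : ℝ) :
    dist (facePoint d p y) (facePoint d q y) ≤ dist p q := by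
  refine (dist_pi_le_iff dist_nonneg).2 (d.forall_iff_succAbove.2 ⟨?_, fun j => ?_⟩) <;>
    simp [facePoint]

theorem Adm.lipschitz_areaAt (hw : Adm w) (d : Fin 3) :
    LipschitzWith hw.lipschitz.choose (areaAt w d) := by
  refine LipschitzWith.of_dist_le_mul fun p q => ?_
  have i : ∀ t, IntegrableOn (fun y => w (facePoint d t y)) square :=
    Rigid.integrableOn_plane hw.measurable 1 (fun x => Rigid.abs_le_one_of_mem (hw.mem x)) d
  rw [Real.dist_eq, areaAt, areaAt, planeInt, planeInt, ← integral_sub (i p) (i q),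
    ← Real.norm_eq_abs]
  refine (norm_setIntegral_le_of_norm_le_const (μ := volume) (s := square) (C := (hw.lipschitz.choose : ℝ) * dist p q)
    (by simp [volume_square]) fun y _ => ?_).trans_eq (by simp [measureReal_def, volume_square])
  rw [Real.norm_eq_abs, ← Real.dist_eq]
  exact (hw.lipschitz.choose_spec.dist_le_mul _ _).trans
    (mul_le_mul_of_nonneg_left (dist_facePoint d y p q) (NNReal.coe_nonneg _))

theorem Adm.antitone_areaAt (hw : Adm w) (d : Fin 3) : AntitoneOn (areaAt w d) (Icc 0 1) := by
  intro p hp q hq hpq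
  have i : ∀ t, IntegrableOn (fun y => w (facePoint d t y)) square :=
    Rigid.integrableOn_plane hw.measurable 1 (fun x => Rigid.abs_le_one_of_mem (hw.mem x)) d
  refine setIntegral_mono_on (i q) (i p) measurableSet_square fun y hy => ?_
  refine hw.anti _ (facePoint_mem_box.2 ⟨hq, hy⟩) _ (facePoint_mem_box.2 ⟨hp, hy⟩)
    (Pi.le_def.2 (d.forall_iff_succAbove.2 ⟨?_, fun j => ?_⟩)) <;> simp [facePoint, hpq]

theorem Adm.deriv_areaAt (hw : Adm w) (d : Fin 3) :
    ∀ᵐ t : ℝ, t ∈ Ioo (0 : ℝ) 1 → deriv (areaAt w d) t = planeInt (pd d w) d t := by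
  obtain ⟨L, hL⟩ := hw.lipschitz
  have hm : Measurable (pd d w) := measurable_pd d w
  have hb : ∀ x, |pd d w x| ≤ L := abs_pd_le hL d
  have hi : ∀ a b, IntervalIntegrable (planeInt (pd d w) d) volume a b :=
    Rigid.intervalIntegrable_planeInt hm hb d
  have key : ∀ t, 0 ≤ t → ∫ s in (0 : ℝ)..t, planeInt (pd d w) d s = areaAt w d t - areaAt w d 0 := by
    intro t ht
    have hpl : ∀ r, IntegrableOn (fun y => w (facePoint d r y)) square :=
      Rigid.integrableOn_plane hw.measurable 1 (fun x => Rigid.abs_le_one_of_mem (hw.mem x)) d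
    rw [intervalIntegral.integral_of_le ht, areaAt, areaAt, planeInt, planeInt,
      ← integral_sub (hpl t) (hpl 0)]
    have : IsFiniteMeasure ((volume : Measure R2).restrict square) :=
      isFiniteMeasure_restrict.2 (by simp [volume_square])
    have : IsFiniteMeasure ((volume : Measure ℝ).restrict (Ioc 0 t)) :=
      isFiniteMeasure_restrict.2 (by simp)
    simp only [planeInt]
    rw [integral_integral_swap (f := fun s y => pd d w (facePoint d s y)) (Integrable.of_bound
      (hm.comp (continuous_facePoint d).measurable).aestronglyMeasurable (L : ℝ)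
      (ae_of_all _ fun p => (Real.norm_eq_abs _).trans_le (hb _)))]
    refine integral_congr_ae (ae_restrict_of_ae ?_)
    filter_upwards [Rigid.ae_line (hL.ae_differentiableAt (μ := volume)) d] with y hy
    have hg : LipschitzWith L fun r => w (facePoint d r y) := LipschitzWith.of_dist_le_mul fun p q =>
      (hL.dist_le_mul _ _).trans (mul_le_mul_of_nonneg_left (dist_facePoint d y p q) L.2)
    rw [← intervalIntegral.integral_of_le ht,
      ← (hg.lipschitzOnWith (s := uIcc 0 t)).absolutelyContinuousOnInterval.integral_deriv_eq_sub]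
    refine intervalIntegral.integral_congr_ae ?_
    filter_upwards [hy] with r hr _
    have h2 : HasDerivAt (fun s : ℝ => facePoint d 0 y + s • unit d) (unit d) r := by
      simpa using ((hasDerivAt_id r).smul_const (unit d)).const_add (facePoint d 0 y)
    simp only [facePoint_add, zero_add] at h2
    exact (hr.hasFDerivAt.comp_hasDerivAt r h2).deriv.symm
  filter_upwards [(hi 0 1).ae_hasDerivAt_integral] with t ht htI
  have h := ht (by rw [uIcc_of_le zero_le_one]; exact Ioo_subset_Icc_self htI) 0 left_mem_uIcc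
  refine ((h.add_const (areaAt w d 0)).congr_of_eventuallyEq ?_).deriv
  filter_upwards [eventually_ge_nhds htI.1] with s hs
  rw [key s hs]; ring

theorem Adm.grad_le (hw : Adm w) (d : Fin 3) :
    ∀ᵐ t : ℝ, t ∈ Ioo (0 : ℝ) 1 → ∀ c s : ℝ, 0 ≤ c → 0 ≤ s → c ^ 2 + s ^ 2 ≤ 1 →
      c * perpAt w d t + s * -deriv (areaAt w d) t ≤ energyAt w d t := by
  filter_upwards [hw.deriv_areaAt d] with t ht htI c s _ _ hcs
  obtain ⟨L, hL⟩ := hw.lipschitz
  rw [ht htI]
  have i1 := Rigid.integrableOn_plane (Rigid.measurable_gradPerp d w) _ (Rigid.abs_gradPerp_le hL d) d t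
  have i2 := Rigid.integrableOn_plane (measurable_pd d w) _ (abs_pd_le hL d) d t
  have i3 := Rigid.integrableOn_plane (measurable_gradNorm w) (3 * (L : ℝ))
    (fun x => by rw [abs_of_nonneg (gradNorm_nonneg w x)]; exact gradNorm_le hL x) d t
  simp only [perpAt, energyAt, planeInt]
  rw [← integral_neg, ← integral_const_mul, ← integral_const_mul,
    ← integral_add (i1.const_mul c) (i2.fun_neg.const_mul s)]
  refine integral_mono ((i1.const_mul c).add (i2.fun_neg.const_mul s)) i3 fun y => ?_
  have h := Rigid.mul_add_mul_le_gradNorm d w (facePoint d t y) (c := c) (σ := -s) (by rwa [neg_sq])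
  show c * _ + s * -_ ≤ _
  linarith

/-- The slice data of an admissible function across `d`. -/
def Adm.sliceData (hw : Adm w) (d : Fin 3) : SliceData where
  A := areaAt w d
  r := perpAt w d
  ρ := stressAt w d
  S := energyAt w d
  err := fun t => max 0 (lmin (areaAt w d t) - perpAt w d t)
  L := hw.lipschitz.choose
  lip := hw.lipschitz_areaAt d
  anti := hw.antitone_areaAt d
  mem := areaAt_mem hw d
  r_nonneg := perpAt_nonneg w d
  err_nonneg := fun _ => le_max_left _ _
  int_r := hw.intervalIntegrable_perpAt d 0 1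
  int_ρ := hw.intervalIntegrable_stressAt d 0 1
  int_S := hw.intervalIntegrable_energyAt d 0 1
  int_err := Rigid.intervalIntegrable_of_bdd (measurable_const.max
    ((continuous_lmin.measurable.comp (measurable_areaAt hw d)).sub (measurable_perpAt w d))) 1
    (fun t => by
      rw [abs_of_nonneg (le_max_left _ _)]
      exact max_le zero_le_one (by
        show lmin (areaAt w d t) - perpAt w d t ≤ 1
        linarith [lmin_le_one (areaAt w d t), perpAt_nonneg w d t])) 0 1
  grad := hw.grad_le d
  ρ_ge := ae_of_all _ fun t _ => hw.stressAt_ge d t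
  ρ_le := ae_of_all _ fun t _ => hw.stressAt_le d t
  slice := ae_of_all _ fun t _ => by
    linarith [le_max_right (0 : ℝ) (lmin (areaAt w d t) - perpAt w d t)]

theorem Adm.calib (hw : Adm w) (d : Fin 3) {H C p q : ℝ} (hp : 0 ≤ p) (hpq : p ≤ q) (hq : q ≤ 1) :
    H * vol w + C + (∫ a in areaAt w d q..areaAt w d p, sd H C a) ≤
      energy w + (∫ t in (0 : ℝ)..1, max 0 (lmin (areaAt w d t) - perpAt w d t)) +
        ∫ t in (0 : ℝ)..1, |stressAt w d t - (H * areaAt w d t + C)| := by
  rw [← hw.vol_eq d, ← hw.energy_eq d]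
  exact (hw.sliceData d).calib hp hpq hq

end Vale.Agent.P232.Gap
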