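import Vale.Agent.P232.Gap.Limit.Basic

/-!
# P232 gap: the end condition, and end areas of superlevel sets
-/

open MeasureTheory Set Filter
open scoped NNReal Real Topology

noncomputable section

namespace Vale.Agent.P232.Gap

open Rigid (planeInt)

/-- The end condition: if the areas near an end converge to `α` and the growth bound is available,
then the flux constant is at least `lmin α - H α`. -/
theorem end_condition {H C α P : ℝ} {A : ℕ → ℝ → ℝ}
    (hA : ∀ n t, A n t ∈ Icc (0 : ℝ) 1)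
    (hnear : ∀ η : ℝ, 0 < η → ∃ t₂, 0 < t₂ ∧ t₂ < 1 / 400 ∧ ∀ t₁, 0 < t₁ → t₁ ≤ t₂ →
      ∀ᶠ n in atTop, ∀ t ∈ Icc t₁ t₂, |A n t - α| ≤ η)
    (hgrow : ∀ κ t₁ t₂ : ℝ, 0 ≤ κ → κ ≤ 1 → 0 < t₁ → t₁ ≤ t₂ → t₂ < 1 / 400 → ∀ᶠ n in atTop,
      (∀ t ∈ Icc t₁ t₂, ∀ τ ∈ Icc t₁ t₂,
          κ ≤ lmin (A n t) - H * A n t - C - 2 * |A n t - A n τ|) →
        κ * Real.log (t₂ / t₁) ≤ P / t₂ + (|H| + |C| + 10)) :
    lmin α - H * α ≤ C := by
  by_contra hgap
  rw [not_le] at hgap
  set κ := min 1 ((lmin α - H * α - C) / 4) with hκdef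
  have hκ : 0 < κ := lt_min one_pos (by linarith)
  have hκ4 : 4 * κ ≤ lmin α - H * α - C := by
    linarith [min_le_right (1 : ℝ) ((lmin α - H * α - C) / 4)]
  obtain ⟨γ, hγ, hγ'⟩ := Metric.continuousWithinAt_iff.1
    (((continuous_lmin.sub (continuous_const.mul continuous_id)).continuousWithinAt
      : ContinuousWithinAt (fun a => lmin a - H * a) (Icc 0 1) α)) κ hκ
  obtain ⟨t₂, ht₂, ht₂', hev⟩ := hnear (min (γ / 2) (κ / 4)) (lt_min (by linarith) (by linarith))
  set X := (|P| / t₂ + (|H| + |C| + 11)) / κ with hX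
  have hX0 : 0 ≤ X := by positivity
  set t₁ := t₂ * Real.exp (-X) with ht₁def
  have ht₁ : 0 < t₁ := by positivity
  have h12 : t₁ ≤ t₂ := mul_le_of_le_one_right ht₂.le (Real.exp_le_one_iff.2 (by linarith))
  obtain ⟨n, hn, hgrow'⟩ := ((hev t₁ ht₁ h12).and
    (hgrow κ t₁ t₂ hκ.le (min_le_left _ _) ht₁ h12 ht₂')).exists
  have h := hgrow' fun t ht τ hτ => by
    have h1 := hn t ht
    have h2 := hn τ hτ
    have hγ1 : |A n t - α| < γ :=
      h1.trans_lt ((min_le_left _ _).trans_lt (by linarith))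
    have h3 := hγ' (hA n t) (by rwa [Real.dist_eq])
    rw [Real.dist_eq] at h3
    change |(lmin (A n t) - H * A n t) - (lmin α - H * α)| < κ at h3
    rw [abs_lt] at h3
    have h5 : |A n t - A n τ| ≤ κ / 2 := by
      refine (abs_sub_le _ α _).trans ?_
      rw [abs_sub_comm α]
      linarith [min_le_right (γ / 2) (κ / 4)]
    linarith
  rw [show t₂ / t₁ = Real.exp X by
      rw [ht₁def, Real.exp_neg]; field_simp, Real.log_exp, hX,
    mul_div_cancel₀ _ hκ.ne'] at h
  linarith [div_le_div_of_nonneg_right (le_abs_self P) ht₂.le]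

/-! ## End areas of a superlevel set -/

theorem mkPoint_apply_third {i j k : Fin 3} (hki : k ≠ i) (hkj : k ≠ j) (a b c : ℝ) :
    mkPoint i j a b c k = c := by
  simp [mkPoint, hki, hkj]

theorem volume_cut {D : Set R3} (hdown : ∀ x ∈ D, ∀ y ∈ box, y ≤ x → y ∈ D) (hsub : D ⊆ box)
    (hm : MeasurableSet D) {i j k : Fin 3} (hij : i ≠ j) (hki : k ≠ i) (hkj : k ≠ j) {c : ℝ}
    (hc : c ∈ Icc (0 : ℝ) 1) :
    volume.real (D ∩ {x | x k ≤ c}) = ∫ z in (0 : ℝ)..c, sliceArea D i j z := by
  set D' := D ∩ {x | x k ≤ c}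
  have hdown' : ∀ x ∈ D', ∀ y ∈ box, y ≤ x → y ∈ D' := fun x hx y hy hyx =>
    ⟨hdown x hx.1 y hy hyx, (hyx k).trans hx.2⟩
  have hm' : MeasurableSet D' := hm.inter (measurableSet_le (measurable_pi_apply k) measurable_const)
  have hlo : ∀ z, z ∈ Icc (0 : ℝ) c → sliceArea D' i j z = sliceArea D i j z := fun z hz => by
    refine intervalIntegral.integral_congr fun a _ => ?_
    show height D' i j _ _ = height D i j _ _
    rw [height, height]
    congr 2
    ext b
    exact and_congr_right fun _ => and_iff_left (by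
      show mkPoint i j _ b _ k ≤ c
      rw [mkPoint_apply_third hki hkj, clamp_of_mem ⟨hz.1, hz.2.trans hc.2⟩]
      exact hz.2)
  have hhi : ∀ z, z ∈ Ioc c 1 → sliceArea D' i j z = 0 := fun z hz => by
    rw [sliceArea, intervalIntegral.integral_congr (g := fun _ => (0 : ℝ)) fun a _ => ?_]
    · simp
    · show height D' i j _ _ = 0
      rw [height]
      refine le_antisymm (csSup_le (insert_nonempty _ _) ?_) (height_mem D' i j _ _).1
      rintro b (rfl | hb)
      · rfl
      · have h := hb.2.2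
        simp only [mem_ofPred_eq, mkPoint_apply_third hki hkj,
          clamp_of_mem (show z ∈ Icc (0 : ℝ) 1 from ⟨hc.1.trans hz.1.le, hz.2⟩)] at h
        exact absurd h hz.1.not_ge
  have hi : ∀ {a b : ℝ}, IntervalIntegrable (sliceArea D' i j) volume a b :=
    (antitone_sliceArea (i := i) (j := j) hdown').intervalIntegrable
  have h := boxVolume_eq (i := i) (j := j) hdown' (inter_subset_left.trans hsub) hm' hij
  rw [← intervalIntegral.integral_add_adjacent_intervals (hi (a := 0) (b := c)) (hi (a := c) (b := 1)),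
    intervalIntegral.integral_congr (f := sliceArea D' i j) (g := sliceArea D i j)
      (a := 0) (b := c) (by rwa [uIcc_of_le hc.1]),
    intervalIntegral.integral_congr_ae (f := sliceArea D' i j) (g := fun _ => (0 : ℝ))
      (a := c) (b := 1) (ae_of_all _ fun z hz => hhi z (by rwa [uIoc_of_le hc.2] at hz))] at h
  simpa [boxVolume] using h

theorem planeInt_band (f : R3 → ℝ) (k : Fin 3) (c t : ℝ) :
    planeInt ({x : R3 | x k ≤ c}.indicator f) k t = (Iic c).indicator (planeInt f k) t := by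
  by_cases h : t ≤ c
  · rw [indicator_of_mem (show t ∈ Iic c from h)]
    refine setIntegral_congr_fun measurableSet_square fun y _ => ?_
    exact indicator_of_mem (by
      show facePoint k t y k ≤ c
      rw [Rigid.facePoint_self]; exact h) _
  · rw [indicator_of_notMem (show t ∉ Iic c from h)]
    refine integral_eq_zero_of_ae (ae_of_all _ fun y => ?_)
    exact indicator_of_notMem (show facePoint k t y ∉ {x : R3 | x k ≤ c} by
      rw [mem_ofPred_eq, Rigid.facePoint_self]; exact h) _

/-- The part of a superlevel set below a plane has the volume of the areas below it. -/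
theorem abs_cut_sub {w : R3 → ℝ} (hw : Adm w) {k : Fin 3} {δ s c : ℝ} (hδ : 0 < δ) (hs : δ ≤ s)
    (hs' : s ≤ 1 - δ) (hc : c ∈ Icc (0 : ℝ) 1) :
    |volume.real ((box ∩ {x | s < w x}) ∩ {x | x k ≤ c}) - ∫ t in (0 : ℝ)..c, areaAt w k t| ≤
      defect w / δ := by
  set K : Set R3 := box ∩ {x | x k ≤ c} with hK
  have hmk : MeasurableSet {x : R3 | x k ≤ c} :=
    measurableSet_le (measurable_pi_apply k) measurable_const
  have hKm : MeasurableSet K := measurableSet_box.inter hmk
  have h := Rigid.abs_level_sub_integral (μ := volume) (K := K)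
    (ne_top_of_le_ne_top (by simp [volume_box]) (measure_mono inter_subset_left))
    hw.measurable hw.mem hδ hs hs'
  have e1 : ∫ x in K, w x = ∫ t in (0 : ℝ)..c, areaAt w k t := by
    rw [hK, ← setIntegral_indicator hmk, ← Rigid.setIntegral_cell_eq_box,
      Rigid.integral_cell_eq_planeInt (hw.measurable.indicator hmk) (C := 1) (fun x => by
        by_cases hx : x ∈ {x : R3 | x k ≤ c}
        · rw [indicator_of_mem hx]; exact Rigid.abs_le_one_of_mem (hw.mem x)
        · rw [indicator_of_notMem hx]; simp) k]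
    simp only [planeInt_band]
    exact intervalIntegral.integral_indicator hc
  have e2 : ∫ x in K, w x * (1 - w x) ≤ defect w := by
    refine setIntegral_mono_set ?_ (ae_of_all _ fun x => (Rigid.mul_one_sub_mem (hw.mem x)).1)
      (ae_of_all _ fun x (hx : x ∈ K) => hx.1)
    exact (hw.continuous.mul (continuous_const.sub hw.continuous)).continuousOn.integrableOn_compact
      isCompact_Icc
  rw [e1] at h
  rw [show (box ∩ {x | s < w x}) ∩ {x | x k ≤ c} = K ∩ {x | s < w x} by
    rw [hK, inter_right_comm]]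
  exact h.trans (div_le_div_of_nonneg_right e2 hδ.le)

/-- Bounds on the limits of slice areas of a superlevel set by nearby areas. -/
theorem end_areas {w : R3 → ℝ} (hw : Adm w) {δ s : ℝ} (hδ : 0 < δ) (hs : δ ≤ s) (hs' : s ≤ 1 - δ)
    {D : Set R3} (hD : D = box ∩ {x | s < w x}) {i j k : Fin 3} (hij : i ≠ j) (hki : k ≠ i)
    (hkj : k ≠ j) {a b : ℝ} (ha : Tendsto (sliceArea D i j) (𝓝[<] 1) (𝓝 a))
    (hb : Tendsto (sliceArea D i j) (𝓝[>] 0) (𝓝 b)) {τ : ℝ} (hτ : τ ∈ Ioo (0 : ℝ) 1) :
    a ≤ areaAt w k (1 - τ) + 2 * (defect w / δ) / τ ∧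
      areaAt w k τ - defect w / δ / τ ≤ b := by
  have hdown : ∀ x ∈ D, ∀ y ∈ box, y ≤ x → y ∈ D := by
    rw [hD]
    exact fun x hx y hy hyx => ⟨hy, lt_of_lt_of_le hx.2 (hw.anti x hx.1 y hy hyx)⟩
  have hsub : D ⊆ box := by rw [hD]; exact inter_subset_left
  have hm : MeasurableSet D := by
    rw [hD]; exact measurableSet_box.inter (measurableSet_lt measurable_const hw.measurable)
  have hS := antitone_sliceArea (i := i) (j := j) hdown
  have hAi : ∀ p q, IntervalIntegrable (areaAt w k) volume p q := fun p q =>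
    (hw.lipschitz_areaAt k).continuous.intervalIntegrable p q
  have hanti := hw.antitone_areaAt k
  have hcut : ∀ c ∈ Icc (0 : ℝ) 1,
      |(∫ z in (0 : ℝ)..c, sliceArea D i j z) - ∫ t in (0 : ℝ)..c, areaAt w k t| ≤ defect w / δ :=
    fun c hc => by
      rw [← volume_cut hdown hsub hm hij hki hkj hc, hD]
      exact abs_cut_sub hw hδ hs hs' hc
  constructor
  · have hle : ∀ z, z < 1 → a ≤ sliceArea D i j z := fun z hz =>
      le_of_tendsto ha (by filter_upwards [Ioo_mem_nhdsLT hz] with y hy; exact hS hy.1.le)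
    have h1 := hcut 1 (right_mem_Icc.2 zero_le_one)
    have h2 := hcut (1 - τ) ⟨by linarith [hτ.2], by linarith [hτ.1]⟩
    rw [← intervalIntegral.integral_add_adjacent_intervals (hS.intervalIntegrable (a := 0) (b := 1 - τ))
      (hS.intervalIntegrable (a := 1 - τ) (b := 1)), ← intervalIntegral.integral_add_adjacent_intervals
      (hAi 0 (1 - τ)) (hAi (1 - τ) 1)] at h1
    have e1 : τ * a ≤ ∫ z in (1 - τ)..1, sliceArea D i j z := by
      refine le_of_eq_of_le ?_ (intervalIntegral.integral_mono_on_of_le_Ioo (by linarith [hτ.1])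
        intervalIntegrable_const hS.intervalIntegrable fun z hz => hle z hz.2)
      simp
    have e2 : ∫ t in (1 - τ)..1, areaAt w k t ≤ τ * areaAt w k (1 - τ) := by
      refine le_of_le_of_eq (intervalIntegral.integral_mono_on (by linarith [hτ.1]) (hAi _ _)
        intervalIntegrable_const fun t ht => hanti ⟨by linarith [hτ.2], by linarith [hτ.1]⟩
          ⟨by linarith [ht.1, hτ.2], ht.2⟩ ht.1) ?_
      simp
    rw [← sub_le_iff_le_add', le_div_iff₀ hτ.1]
    linarith [abs_le.1 h1, abs_le.1 h2]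
  · have hge : ∀ z, 0 < z → sliceArea D i j z ≤ b := fun z hz =>
      ge_of_tendsto hb (by filter_upwards [Ioo_mem_nhdsGT hz] with y hy; exact hS hy.2.le)
    have h1 := hcut τ (Ioo_subset_Icc_self hτ)
    have e1 : ∫ z in (0 : ℝ)..τ, sliceArea D i j z ≤ τ * b := by
      refine le_of_le_of_eq (intervalIntegral.integral_mono_on_of_le_Ioo hτ.1.le
        hS.intervalIntegrable intervalIntegrable_const fun z hz => hge z hz.1) ?_
      simp
    have e2 : τ * areaAt w k τ ≤ ∫ t in (0 : ℝ)..τ, areaAt w k t := by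
      refine le_of_eq_of_le ?_ (intervalIntegral.integral_mono_on hτ.1.le intervalIntegrable_const
        (hAi _ _) fun t ht => hanti ⟨ht.1, ht.2.trans hτ.2.le⟩ (Ioo_subset_Icc_self hτ) ht.2)
      simp
    rw [sub_le_iff_le_add', ← sub_le_iff_le_add, le_div_iff₀ hτ.1]
    linarith [abs_le.1 h1]

end Vale.Agent.P232.Gap
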